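import Vale.Agent.P033.Main

/-- The circulant Hadamard conjecture: a real circulant Hadamard matrix of order `n ≥ 1`
exists exactly when `n = 1` or `n = 4`. -/
theorem Vale.Agent.Results.P033.Full.result (n : ℕ) (hn : 1 ≤ n) :
    (∃ H : Matrix (Fin n) (Fin n) ℝ,
      (∀ i j, H i j = 1 ∨ H i j = -1) ∧
      H * H.transpose = (n : ℝ) • (1 : Matrix (Fin n) (Fin n) ℝ) ∧
      ∃ h : ℤ → ℝ, ∀ i j : Fin n, H i j = h ((((j : ℕ) : ℤ) - ((i : ℕ) : ℤ)) % (n : ℤ))) ↔
    (n = 1 ∨ n = 4) := by
  constructor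
  · rintro ⟨H, hsign, hH, h, hh⟩
    have : NeZero n := ⟨by omega⟩
    have hcirc : ∀ i j : Fin n, H i j = H 0 (j - i) := by
      intro i j
      rw [hh i j, hh 0 (j - i), Fin.coe_int_sub_eq_mod]
      simp
    let d : Fin n → ℤ := fun j => if H 0 j = 1 then 0 else 1
    have hd : ∀ j, H 0 j = ((1 - 2 * d j : ℤ) : ℝ) := by
      intro j
      by_cases h1 : H 0 j = 1
      · simp [d, h1]
      · have h2 := (hsign 0 j).resolve_left h1
        simp only [d, if_neg h1]
        rw [h2]; norm_num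
    apply Vale.Agent.P033.seq_result n d
    intro t
    have h1 := congrFun (congrFun hH 0) t
    rw [Matrix.mul_apply] at h1
    simp only [Matrix.transpose_apply, Matrix.smul_apply, Matrix.one_apply, smul_eq_mul] at h1
    have h2 : ((∑ j, (1 - 2 * d j) * (1 - 2 * d (j - t)) : ℤ) : ℝ) =
        ((if t = 0 then (n : ℤ) else 0 : ℤ) : ℝ) := by
      rw [Int.cast_sum]
      have h3 : ∀ j : Fin n, (((1 - 2 * d j) * (1 - 2 * d (j - t)) : ℤ) : ℝ) = H 0 j * H t j := by
        intro j
        rw [hcirc t j, hd, hd, Int.cast_mul]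
      rw [Finset.sum_congr rfl fun j _ => h3 j, h1]
      by_cases ht : t = 0
      · simp [ht]
      · simp [ht, Ne.symm ht]
    exact_mod_cast h2
  · rintro (rfl | rfl)
    · refine ⟨Matrix.of fun _ _ => 1, fun _ _ => Or.inl rfl, ?_, fun _ => 1, fun _ _ => rfl⟩
      ext i j
      fin_cases i; fin_cases j
      simp [Matrix.mul_apply]
    · refine ⟨!![1, 1, 1, -1; -1, 1, 1, 1; 1, -1, 1, 1; 1, 1, -1, 1], ?_, ?_,
        fun k => if k = 3 then -1 else 1, ?_⟩
      · intro i j
        fin_cases i <;> fin_cases j <;> simp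
      · ext i j
        fin_cases i <;> fin_cases j <;> simp [Matrix.mul_apply, Fin.sum_univ_four] <;> norm_num
      · intro i j
        fin_cases i <;> fin_cases j <;> simp
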